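import Mathlib
import Vale.Agent.P347.Zero.Ode

/-!
P219: global flows of complete smooth fields are `C¹` and carry invariant densities.

Locally in space and on bounded time intervals the flow is the flow of a cut-off field, to which
`Vale.Agent.P347.Zero.Ode` applies; the derivative in the starting point is continuous because it
is a component of the flow of the linearised system.
-/

namespace Vale.Agent.P219.CH

open MeasureTheory Set Filter Topology Metric
open Vale.Agent.P347.Zero (FieldReg IsTraj odeFlow hasDerivWithinAt_det hasDerivAt_of_within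
  deriv_Ici)
open scoped ContDiff NNReal ENNReal

noncomputable section

variable {F : Type*} [NormedAddCommGroup F] [NormedSpace ℝ F] [FiniteDimensional ℝ F]

/-- A global flow of a field. -/
structure IsFlowOf (W : F → F) (Φ : ℝ → F → F) : Prop where
  smooth : ContDiff ℝ ∞ W
  zero : ∀ x, Φ 0 x = x
  deriv : ∀ x t, HasDerivAt (fun s => Φ s x) (W (Φ t x)) t

/-- A cut-off of a field, equal to it on the ball of radius `R`. -/
def cutField (R : ℝ) (W : F → F) (x : F) : F :=
  if h : 0 < R then ((⟨R, R + 1, h, by linarith⟩ : ContDiffBump (0 : F)) x) • W x else 0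

lemma contDiff_cutField {W : F → F} (hW : ContDiff ℝ ∞ W) (R : ℝ) :
    ContDiff ℝ ∞ (cutField R W) := by
  by_cases h : 0 < R
  · have : cutField R W = fun x => ((⟨R, R + 1, h, by linarith⟩ : ContDiffBump (0 : F)) x) • W x :=
      funext fun x => dif_pos h
    rw [this]
    exact (ContDiffBump.contDiff _).smul hW
  · rw [show cutField R W = fun _ => 0 from funext fun x => dif_neg h]
    exact contDiff_const

lemma hasCompactSupport_cutField (W : F → F) (R : ℝ) : HasCompactSupport (cutField R W) := by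
  by_cases h : 0 < R
  · have : cutField R W = fun x => ((⟨R, R + 1, h, by linarith⟩ : ContDiffBump (0 : F)) x) • W x :=
      funext fun x => dif_pos h
    rw [this]
    exact (ContDiffBump.hasCompactSupport _).smul_right
  · rw [show cutField R W = fun _ => 0 from funext fun x => dif_neg h]
    exact HasCompactSupport.zero

lemma cutField_eq {W : F → F} {R : ℝ} (hR : 0 < R) {x : F} (hx : ‖x‖ ≤ R) :
    cutField R W x = W x := by
  rw [cutField, dif_pos hR, ContDiffBump.one_of_mem_closedBall _ (by simpa using hx), one_smul]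

lemma fderiv_cutField {W : F → F} {R : ℝ} (hR : 0 < R) {x : F} (hx : ‖x‖ < R) :
    fderiv ℝ (cutField R W) x = fderiv ℝ W x := by
  refine Filter.EventuallyEq.fderiv_eq ?_
  filter_upwards [isOpen_ball.mem_nhds (mem_ball_zero_iff.2 hx)] with y hy
  exact cutField_eq hR (mem_ball_zero_iff.1 hy).le

lemma fieldReg_cutField {W : F → F} (hW : ContDiff ℝ ∞ W) (R a b : ℝ) :
    FieldReg (fun _ => cutField R W) a b := by
  have h := contDiff_cutField hW R
  obtain ⟨M, hM⟩ := (hasCompactSupport_cutField W R).exists_bound_of_continuous h.continuous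
  refine ⟨(h.continuous.comp continuous_snd).continuousOn,
    fun t _ => h.differentiable (by simp),
    ((h.continuous_fderiv (by simp)).comp continuous_snd).continuousOn,
    max M 1, le_max_right _ _, fun t _ x => ?_⟩
  calc ‖cutField R W x‖ ≤ max M 1 * 1 := by rw [mul_one]; exact (hM x).trans (le_max_left _ _)
    _ ≤ max M 1 * (1 + ‖x‖) :=
      mul_le_mul_of_nonneg_left (by linarith [norm_nonneg x]) (zero_le_one.trans (le_max_right _ _))

/-- The linearised cut-off system. -/
def linField (R : ℝ) (W : F → F) (q : F × (F →L[ℝ] F)) : F × (F →L[ℝ] F) :=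
  (cutField R W q.1, (fderiv ℝ (cutField R W) q.1).comp q.2)

lemma fieldReg_linField {W : F → F} (hW : ContDiff ℝ ∞ W) (R a b : ℝ) :
    FieldReg (fun _ => linField R W) a b := by
  have h := contDiff_cutField hW R
  have hd : ContDiff ℝ ∞ (fderiv ℝ (cutField R W)) := h.fderiv_right (by simp)
  have hl : ContDiff ℝ ∞ (linField R W) :=
    (h.comp contDiff_fst).prodMk ((hd.comp contDiff_fst).clm_comp contDiff_snd)
  obtain ⟨M, hM⟩ := (hasCompactSupport_cutField W R).exists_bound_of_continuous h.continuous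
  obtain ⟨M', hM'⟩ := ((hasCompactSupport_cutField W R).fderiv ℝ).exists_bound_of_continuous
    hd.continuous
  refine ⟨(hl.continuous.comp continuous_snd).continuousOn,
    fun t _ => hl.differentiable (by simp),
    ((hl.continuous_fderiv (by simp)).comp continuous_snd).continuousOn,
    max (max M M') 1, le_max_right _ _, fun t _ q => ?_⟩
  set C := max (max M M') 1
  have hC : 1 ≤ C := le_max_right _ _
  have h1 : M ≤ C := (le_max_left M M').trans (le_max_left _ 1)
  have h2 : M' ≤ C := (le_max_right M M').trans (le_max_left _ 1)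
  refine norm_prod_le_iff.2 ⟨?_, ?_⟩
  · exact ((hM q.1).trans h1).trans
      (le_mul_of_one_le_right (by linarith) (by linarith [norm_nonneg q]))
  · refine (ContinuousLinearMap.opNorm_comp_le _ _).trans (mul_le_mul
      ((hM' q.1).trans h2) ?_ (norm_nonneg _) (by linarith))
    linarith [norm_snd_le q]

/-- The flow of a cut-off field has a continuous derivative in the starting point. -/
lemma exists_deriv_cut {W : F → F} (hW : ContDiff ℝ ∞ W) (R : ℝ) {T : ℝ} (hT : 0 ≤ T) :
    ∃ J : ℝ × F → F →L[ℝ] F, ContinuousOn J (Icc 0 T ×ˢ univ) ∧ ∀ q ∈ Icc 0 T ×ˢ (univ : Set F),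
      HasFDerivAt (fun y => odeFlow (fun _ => cutField R W) 0 T y q.1) (J q) q.2 := by
  have hV : FieldReg (fun _ => cutField R W) 0 T := fieldReg_cutField hW R 0 T
  have hV' : FieldReg (fun _ => linField R W) 0 T := fieldReg_linField hW R 0 T
  set ψ : ℝ × F → F × (F →L[ℝ] F) := fun q =>
    odeFlow (fun _ => linField R W) 0 T (q.2, ContinuousLinearMap.id ℝ F) q.1
  have hψc : ContinuousOn ψ (Icc 0 T ×ˢ univ) :=
    (hV'.continuousOn_flow hT).comp
      ((continuous_snd.prodMk continuous_const).prodMk continuous_fst).continuousOn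
      fun q hq => mk_mem_prod (mem_univ _) hq.1
  refine ⟨fun q => (ψ q).2, hψc.snd, fun q hq => ?_⟩
  obtain ⟨J, hJ0, hJ, hJd⟩ := hV.hasFDerivAt_flow hT q.2
  obtain ⟨hx, hx0⟩ := hV.flow_spec hT q.2
  have h := hV'.flow_eq hT (γ := fun s => (odeFlow (fun _ => cutField R W) 0 T q.2 s, J s))
    (fun s hs => (hx s hs).prodMk (hJ s hs)) hq.1
  simp only [hx0, hJ0] at h
  have e : (ψ q).2 = J q.1 := congrArg Prod.snd h
  beta_reduce
  rw [e]
  exact hJd q.1 hq.1

namespace IsFlowOf

variable {W : F → F} {Φ : ℝ → F → F} (hΦ : IsFlowOf W Φ)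

include hΦ

omit [FiniteDimensional ℝ F] in
lemma continuous_path (x : F) : Continuous fun s => Φ s x :=
  continuous_iff_continuousAt.2 fun t => (hΦ.deriv x t).continuousAt

/-- Solutions are unique. -/
lemma unique {c : ℝ → F} (hc : ∀ t, HasDerivAt c (W (c t)) t) {x : F} {s : ℝ}
    (he : c s = Φ s x) : c = fun t => Φ t x := by
  funext t
  set a := min s t
  set b := max s t
  obtain ⟨R₁, hR₁⟩ := isCompact_Icc.exists_bound_of_continuousOn (s := Icc a b) (f := c)
    fun u _ => (hc u).continuousAt.continuousWithinAt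
  obtain ⟨R₂, hR₂⟩ := isCompact_Icc.exists_bound_of_continuousOn (s := Icc a b)
    (hΦ.continuous_path x).continuousOn
  set R := max (max R₁ R₂) 1
  have hR : 0 < R := lt_of_lt_of_le one_pos (le_max_right _ _)
  refine (fieldReg_cutField hΦ.smooth R a b).traj_unique (γ₁ := c) (γ₂ := fun u => Φ u x)
    (fun u hu => ?_) (fun u hu => ?_)
    ⟨min_le_left _ _, le_max_left _ _⟩ he ⟨min_le_right _ _, le_max_right _ _⟩
  beta_reduce
  · rw [cutField_eq hR ((hR₁ u hu).trans ((le_max_left _ _).trans (le_max_left _ _)))]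
    exact (hc u).hasDerivWithinAt
  beta_reduce
  · rw [cutField_eq hR ((hR₂ u hu).trans ((le_max_right _ _).trans (le_max_left _ _)))]
    exact (hΦ.deriv x u).hasDerivWithinAt

lemma add (s t : ℝ) (x : F) : Φ (s + t) x = Φ s (Φ t x) := by
  have h := hΦ.unique (c := fun u => Φ (u + t) x) (x := Φ t x) (s := 0)
    (fun u => (hΦ.deriv x (u + t)).comp_add_const u t) (by rw [zero_add, hΦ.zero])
  exact congrFun h s

omit [FiniteDimensional ℝ F] in
/-- The flow run backwards. -/
lemma reverse : IsFlowOf (fun x => -W x) (fun t x => Φ (-t) x) := by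
  refine ⟨hΦ.smooth.neg, fun x => by rw [neg_zero, hΦ.zero], fun x t => ?_⟩
  simpa [Function.comp_def] using (hΦ.deriv x (-t)).scomp t (hasDerivAt_neg t)

/-- Near a point and on a bounded interval the flow is the flow of a cut-off field. -/
lemma exists_cut (x₀ : F) {T : ℝ} (hT : 0 ≤ T) : ∃ R : ℝ, 0 < R ∧ ∀ᶠ x in 𝓝 x₀,
    EqOn (fun s => Φ s x) (odeFlow (fun _ => cutField R W) 0 T x) (Icc 0 T) ∧
      ∀ s ∈ Icc 0 T, ‖Φ s x‖ < R := by
  obtain ⟨R₀, hR₀⟩ := isCompact_Icc.exists_bound_of_continuousOn (s := Icc 0 T)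
    (hΦ.continuous_path x₀).continuousOn
  set R := max R₀ 0 + 1
  have hR : 0 < R := by positivity
  have hV := fieldReg_cutField hΦ.smooth R 0 T
  have h0 : EqOn (odeFlow (fun _ => cutField R W) 0 T x₀) (fun s => Φ s x₀) (Icc 0 T) := by
    have h := hV.flow_eq hT (γ := fun s => Φ s x₀) fun u hu => by
      beta_reduce
      rw [cutField_eq hR (by linarith [hR₀ u hu, le_max_left R₀ 0])]
      exact (hΦ.deriv x₀ u).hasDerivWithinAt
    simpa [hΦ.zero] using h
  obtain ⟨K, hK0, hK⟩ := hV.flow_lip hT (‖x₀‖ + 1)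
  refine ⟨R, hR, ?_⟩
  filter_upwards [closedBall_mem_nhds x₀ (show 0 < 1 / (K + 2) by positivity)] with x hx
  rw [mem_closedBall, dist_eq_norm, le_div_iff₀ (by positivity)] at hx
  have hxx : ‖x‖ ≤ ‖x₀‖ + 1 := (norm_le_norm_add_norm_sub' x x₀).trans
    (by nlinarith [norm_nonneg (x - x₀), hx])
  obtain ⟨hc, hc0⟩ := hV.flow_spec hT x
  have hb : ∀ s ∈ Icc 0 T, ‖odeFlow (fun _ => cutField R W) 0 T x s‖ < R := by
    intro s hs
    have h1 := hK x x₀ hxx (by linarith) s hs
    rw [h0 hs] at h1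
    have h2 : K * ‖x - x₀‖ < 1 := by nlinarith [norm_nonneg (x - x₀)]
    have h3 := (norm_le_norm_add_norm_sub' (odeFlow (fun _ => cutField R W) 0 T x s) (Φ s x₀))
    linarith [hR₀ s hs, le_max_left R₀ 0]
  have he : EqOn (fun s => Φ s x) (odeFlow (fun _ => cutField R W) 0 T x) (Icc 0 T) := by
    obtain ⟨R₁, hR₁⟩ := isCompact_Icc.exists_bound_of_continuousOn (s := Icc 0 T)
      (hΦ.continuous_path x).continuousOn
    set R' := max R₁ R
    have hR' : 0 < R' := hR.trans_le (le_max_right _ _)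
    refine (fieldReg_cutField hΦ.smooth R' 0 T).traj_unique (fun u hu => ?_) (fun u hu => ?_)
      (left_mem_Icc.2 hT) (by rw [hc0, hΦ.zero])
    beta_reduce
    · rw [cutField_eq hR' ((hR₁ u hu).trans (le_max_left _ _))]
      exact (hΦ.deriv x u).hasDerivWithinAt
    · have := hc u hu
      beta_reduce at this
      rw [cutField_eq hR (hb u hu).le] at this
      beta_reduce
      rw [cutField_eq hR' ((hb u hu).le.trans (le_max_right _ _))]
      exact this
  refine ⟨he, fun s hs => ?_⟩
  rw [show Φ s x = odeFlow (fun _ => cutField R W) 0 T x s from he hs]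
  exact hb s hs

/-- The flow is `C¹` at positive times. -/
lemma contDiffAt_of_pos {t₀ : ℝ} (ht₀ : 0 < t₀) (x₀ : F) :
    ContDiffAt ℝ 1 (fun q : ℝ × F => Φ q.1 q.2) (t₀, x₀) := by
  set T := t₀ + 1
  have hT : 0 ≤ T := by linarith
  obtain ⟨R, hR, hU⟩ := hΦ.exists_cut x₀ hT
  obtain ⟨U, hU', hUo, hx₀⟩ := _root_.eventually_nhds_iff.1 hU
  obtain ⟨J, hJc, hJd⟩ := exists_deriv_cut hΦ.smooth R hT
  set φ : ℝ → F → F := fun t x => odeFlow (fun _ => cutField R W) 0 T x t
  have hV := fieldReg_cutField hΦ.smooth R 0 T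
  have hφc : ContinuousOn (fun q : ℝ × F => φ q.1 q.2) (Icc 0 T ×ˢ univ) :=
    (hV.continuousOn_flow hT).comp (continuous_snd.prodMk continuous_fst).continuousOn
      fun q hq => mk_mem_prod (mem_univ _) hq.1
  set S := Ioo (0 : ℝ) T ×ˢ U
  have hS : IsOpen S := isOpen_Ioo.prod hUo
  have hsub : S ⊆ Icc 0 T ×ˢ univ := prod_mono Ioo_subset_Icc_self (subset_univ _)
  set f₁ : ℝ → F → ℝ →L[ℝ] F := fun t x =>
    ContinuousLinearMap.toSpanSingleton ℝ (cutField R W (φ t x))
  have hc₁ : ContinuousOn (fun q : ℝ × F => f₁ q.1 q.2) (Icc 0 T ×ˢ univ) :=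
    (ContinuousLinearMap.toSpanSingletonLE ℝ ℝ F).toLinearMap.continuous_of_finiteDimensional
      |>.comp_continuousOn
        ((contDiff_cutField hΦ.smooth R).continuous.comp_continuousOn hφc)
  have hd : ∀ q ∈ S, HasFDerivAt (fun q : ℝ × F => Φ q.1 q.2)
      ((f₁ q.1 q.2).coprod (J q)) q := by
    intro q hq
    have hn : Icc 0 T ×ˢ (univ : Set F) ∈ 𝓝 q := mem_of_superset (hS.mem_nhds hq) hsub
    have h := (hasStrictFDerivAt_uncurry_coprod (f := φ) (f₁ := f₁)
      (f₂ := fun t x => J (t, x)) (u := q) ?_ ?_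
      (hc₁.continuousAt hn) (hJc.continuousAt hn)).hasFDerivAt
    · refine h.congr_of_eventuallyEq ?_
      filter_upwards [hS.mem_nhds hq] with v hv
      exact (hU' v.2 hv.2).1 (Ioo_subset_Icc_self hv.1)
    · filter_upwards [hS.mem_nhds hq] with v hv
      exact (hasDerivAt_of_within hv.1
        ((hV.flow_spec hT v.2).1 v.1 (Ioo_subset_Icc_self hv.1))).hasFDerivAt
    · filter_upwards [hS.mem_nhds hq] with v hv
      exact hJd v (hsub hv)
  exact contDiffAt_one_iff.2 ⟨_, S, hS.mem_nhds ⟨⟨ht₀, by linarith⟩, hx₀⟩,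
    (ContinuousLinearMap.coprodEquivL ℝ).continuous.comp_continuousOn
      ((hc₁.mono hsub).prodMk (hJc.mono hsub)), hd⟩

lemma contDiff_time_of_pos {t : ℝ} (ht : 0 < t) : ContDiff ℝ 1 (Φ t) :=
  contDiff_iff_contDiffAt.2 fun x =>
    (hΦ.contDiffAt_of_pos ht x).comp x (contDiff_const.prodMk contDiff_id).contDiffAt

/-- The flow is `C¹`. -/
theorem contDiff : ContDiff ℝ 1 fun q : ℝ × F => Φ q.1 q.2 := by
  refine contDiff_iff_contDiffAt.2 fun q => ?_
  set T := |q.1| + 1
  have hT : 0 < T := by positivity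
  have hr := hΦ.reverse.contDiff_time_of_pos hT
  have heq : (fun q : ℝ × F => Φ q.1 q.2) = fun q => Φ (q.1 + T) (Φ (-T) q.2) := funext fun p => by
    rw [← hΦ.add, add_neg_cancel_right]
  rw [heq]
  exact ContDiffAt.comp (f := fun p : ℝ × F => (p.1 + T, Φ (-T) p.2)) q
    (hΦ.contDiffAt_of_pos (by linarith [neg_abs_le q.1] : 0 < q.1 + T) _)
    ((contDiff_fst.add contDiff_const).prodMk (hr.comp contDiff_snd)).contDiffAt

/-- The Jacobian of the flow carries an invariant density. -/
lemma density_det {p : F → ℝ} (hp : Differentiable ℝ p) (hpos : ∀ x, 0 < p x)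
    (hdiv : ∀ x, fderiv ℝ p x (W x) + p x * LinearMap.trace ℝ F (fderiv ℝ W x).toLinearMap = 0)
    {t : ℝ} (ht : 0 ≤ t) (x : F) :
    ∃ J : F →L[ℝ] F, HasFDerivAt (Φ t) J x ∧ p (Φ t x) * |J.det| = p x := by
  obtain ⟨R, hR, hU⟩ := hΦ.exists_cut x ht
  have hV := fieldReg_cutField hΦ.smooth R 0 t
  obtain ⟨J, hJ0, hJ, hJd⟩ := hV.hasFDerivAt_flow ht x
  obtain ⟨hxe, hxb⟩ := hU.self_of_nhds
  have hg : ∀ s ∈ Icc 0 t,
      HasDerivWithinAt (fun u => p (Φ u x) * (J u).det) 0 (Icc 0 t) s := by
    intro s hs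
    have h1 := ((hp (Φ s x)).hasFDerivAt.comp_hasDerivAt s (hΦ.deriv x s)).hasDerivWithinAt
      (s := Icc 0 t)
    have h2 := hJ s hs
    rw [← hxe hs, fderiv_cutField hR (hxb s hs)] at h2
    refine (h1.mul (hasDerivWithinAt_det h2)).congr_deriv ?_
    simp only [Function.comp_apply]
    linear_combination (J s).det * hdiv (Φ s x)
  have hconst := constant_of_has_deriv_right_zero (fun s hs => (hg s hs).continuousWithinAt)
    (fun s hs => deriv_Ici hs (hg s (Ico_subset_Icc_self hs))) t (right_mem_Icc.2 ht)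
  simp only [hJ0, hΦ.zero] at hconst
  rw [show (ContinuousLinearMap.id ℝ F).det = 1 from LinearMap.det_id, mul_one] at hconst
  have hJp : 0 < (J t).det :=
    (mul_pos_iff_of_pos_left (hpos (Φ t x))).1 (hconst ▸ hpos x)
  refine ⟨J t, (hJd t (right_mem_Icc.2 ht)).congr_of_eventuallyEq ?_,
    by rw [abs_of_pos hJp]; exact hconst⟩
  filter_upwards [hU] with y hy
  exact hy.1 (right_mem_Icc.2 ht)

variable [MeasurableSpace F] [BorelSpace F] (μ : Measure F) [μ.IsAddHaarMeasure]

lemma map_of_nonneg {p : F → ℝ} (hp : Differentiable ℝ p) (hpos : ∀ x, 0 < p x)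
    (hdiv : ∀ x, fderiv ℝ p x (W x) + p x * LinearMap.trace ℝ F (fderiv ℝ W x).toLinearMap = 0)
    {t : ℝ} (ht : 0 ≤ t) :
    (μ.withDensity fun x => ENNReal.ofReal (p x)).map (Φ t) =
      μ.withDensity fun x => ENNReal.ofReal (p x) := by
  choose J hJ hJp using fun x => hΦ.density_det hp hpos hdiv ht x
  have hTc : Continuous (Φ t) := continuous_iff_continuousAt.2 fun x => (hJ x).continuousAt
  have hinj : Function.Injective (Φ t) := fun a b h => by
    simpa [← hΦ.add, hΦ.zero] using congrArg (Φ (-t)) h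
  have hsurj : Function.Surjective (Φ t) := fun y => ⟨Φ (-t) y, by simp [← hΦ.add, hΦ.zero]⟩
  refine Measure.ext fun S hS => ?_
  rw [Measure.map_apply hTc.measurable hS, withDensity_apply _ (hTc.measurable hS),
    withDensity_apply _ hS]
  have h := lintegral_image_eq_lintegral_abs_det_fderiv_mul μ (hTc.measurable hS)
    (fun x _ => (hJ x).hasFDerivWithinAt) hinj.injOn (fun y => ENNReal.ofReal (p y))
  rw [Set.image_preimage_eq S hsurj] at h
  rw [h]
  refine setLIntegral_congr_fun (hTc.measurable hS) fun x _ => ?_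
  rw [← ENNReal.ofReal_mul (abs_nonneg _), mul_comm, hJp]

/-- Liouville's theorem. -/
theorem measurePreserving {p : F → ℝ} (hp : Differentiable ℝ p) (hpos : ∀ x, 0 < p x)
    (hdiv : ∀ x, fderiv ℝ p x (W x) + p x * LinearMap.trace ℝ F (fderiv ℝ W x).toLinearMap = 0)
    (t : ℝ) :
    MeasurePreserving (Φ t) (μ.withDensity fun x => ENNReal.ofReal (p x))
      (μ.withDensity fun x => ENNReal.ofReal (p x)) := by
  have hm : ∀ u, Measurable (Φ u) := fun u =>
    (hΦ.contDiff.continuous.comp (continuous_const.prodMk continuous_id)).measurable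
  refine ⟨hm t, ?_⟩
  rcases le_or_gt 0 t with h | h
  · exact hΦ.map_of_nonneg μ hp hpos hdiv h
  · have h' := hΦ.reverse.map_of_nonneg μ hp hpos (fun x => ?_) (neg_nonneg.2 h.le)
    · rwa [neg_neg] at h'
    · simp only [fderiv_fun_neg, map_neg, ContinuousLinearMap.toLinearMap_neg]
      linear_combination -(hdiv x)

end IsFlowOf

end

end Vale.Agent.P219.CH
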