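import Vale.Agent.P219.CH.Geo.Basic

/-!
P219: the geodesic field on the tangent bundle.
-/

namespace Vale.Agent.P219.CH

open scoped ContDiff

noncomputable section

variable {n : ℕ}

/-- The geodesic field `(x, v) ↦ (v, -Γ(v, v))`. -/
def geoField (G : Coeff n) (p : E n × E n) : E n × E n := (p.2, -chr G p.1 p.2 p.2)

/-- A global `C¹` flow of the geodesic field. -/
structure IsFlow (G : Coeff n) (φ : ℝ → E n × E n → E n × E n) : Prop where
  c1 : ContDiff ℝ 1 fun q : ℝ × (E n × E n) => φ q.1 q.2
  zero : ∀ p, φ 0 p = p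
  ode : ∀ p t, HasDerivAt (fun s => φ s p) (geoField G (φ t p)) t

theorem contDiff_geoField {G : Coeff n} (hG : IsMetric G) : ContDiff ℝ ∞ (geoField G) :=
  contDiff_snd.prodMk (hG.contDiff_chr.comp
    (contDiff_fst.prodMk (contDiff_snd.prodMk contDiff_snd))).neg

end

end Vale.Agent.P219.CH
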